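import Vale.Agent.P122.E.Defs

/-!
# P122 / E : tools for rare events and dense systems (helper611)

* `prb_*`, `Rare.mono`, `Rare.or`, `Rare.bUnion`, `Rare.of_false`, `not_rare`, `Rare.not_compl`.
* `cnd S E` : the system conditioned on the event `E`; `dnsOn : ¬ Rare S E → Dns (cnd S E) S`; `dnsOff` for the
  complement of a rare event; `cnd_supp` (for all indices), `cnd_mem` (eventually inside `E`).
* `Dns.comp`, `Dns.refl'`, `Dns.ofExt`, `Rare.pull`.
* `Rare.markov` : conditional probabilities; `select` : a rare event of two conditionally independent copies gives a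
  choice function.
-/

set_option autoImplicit false

namespace Vale.Agent.P122.E

open Filter Topology Finset Vale.Agent.P127 Vale.Agent.P127.Stk Vale.Agent.P127.U Vale.Agent.P127.U.Sys

variable {S S' S'' : Sys} {α β : Type*}

theorem prb_eq (E : ∀ i, S.Ω i → Prop) (i : ℕ) : prb S E i = prE (S.P i) (E i) := by
  classical
  unfold prb Law.ex prE
  rw [Finset.sum_filter]
  refine Finset.sum_congr rfl fun ω _ => ?_
  by_cases h : E i ω <;> simp [h]

theorem prb_nonneg (E : ∀ i, S.Ω i → Prop) (i : ℕ) : 0 ≤ prb S E i := by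
  rw [prb_eq]
  exact prE_nonneg _ _

theorem prb_le_one (E : ∀ i, S.Ω i → Prop) (i : ℕ) : prb S E i ≤ 1 := by
  rw [prb_eq]
  exact prE_le_one _ _

theorem prb_not (E : ∀ i, S.Ω i → Prop) (i : ℕ) : prb S (fun i ω => ¬ E i ω) i = 1 - prb S E i := by
  rw [prb_eq, prb_eq]
  exact prE_not _ _

theorem prb_mono {E E' : ∀ i, S.Ω i → Prop} {i : ℕ}
    (h : ∀ ω, 0 < (S.P i).w ω → E i ω → E' i ω) : prb S E i ≤ prb S E' i := by
  classical
  unfold prb
  refine (S.P i).ex_mono fun ω hω => ?_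
  split_ifs with h1 h2
  · exact le_rfl
  · exact absurd (h ω hω h1) h2
  · exact zero_le_one
  · exact le_rfl

theorem prb_or (E E' : ∀ i, S.Ω i → Prop) (i : ℕ) :
    prb S (fun i ω => E i ω ∨ E' i ω) i ≤ prb S E i + prb S E' i := by
  classical
  unfold prb
  rw [← (S.P i).ex_add]
  refine (S.P i).ex_mono fun ω _ => ?_
  by_cases h1 : E i ω <;> by_cases h2 : E' i ω <;> simp [h1, h2]

theorem prb_of_false {E : ∀ i, S.Ω i → Prop} {i : ℕ} (h : ∀ ω, 0 < (S.P i).w ω → ¬ E i ω) :
    prb S E i = 0 := by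
  classical
  unfold prb
  rw [(S.P i).ex_congr (g := fun _ => (0:ℝ)) fun ω hω => by rw [if_neg (h ω hω)]]
  exact (S.P i).ex_const 0

/-- the exponential of the scale -/
theorem pow_tendsto (S : Sys) {η : ℝ} (hη : 0 < η) :
    Tendsto (fun i => (2 : ℝ) ^ (-(η * S.L i))) (uf : Filter ℕ) (𝓝 0) := by
  have h1 : Tendsto (fun i => (S.L i : ℝ)) (uf : Filter ℕ) atTop :=
    tendsto_natCast_atTop_atTop.comp S.Ltop
  have h2 : Tendsto (fun i => η * (S.L i : ℝ)) (uf : Filter ℕ) atTop :=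
    h1.const_mul_atTop hη
  have h3 : Tendsto (fun i => -(η * (S.L i : ℝ))) (uf : Filter ℕ) atBot :=
    tendsto_neg_atTop_atBot.comp h2
  exact (tendsto_rpow_atBot_of_base_gt_one 2 (by norm_num)).comp h3

theorem Rare.mono {E E' : ∀ i, S.Ω i → Prop} (h : Rare S E')
    (hE : ∀ᶠ i in (uf : Filter ℕ), ∀ ω, 0 < (S.P i).w ω → E i ω → E' i ω) : Rare S E := by
  obtain ⟨η, hη, h⟩ := h
  refine ⟨η, hη, ?_⟩
  filter_upwards [h, hE] with i h1 h2
  exact (prb_mono h2).trans h1

theorem Rare.of_false {E : ∀ i, S.Ω i → Prop}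
    (h : ∀ᶠ i in (uf : Filter ℕ), ∀ ω, 0 < (S.P i).w ω → ¬ E i ω) : Rare S E := by
  refine ⟨1, one_pos, ?_⟩
  filter_upwards [h] with i h1
  rw [prb_of_false h1]
  positivity

theorem Rare.or {E E' : ∀ i, S.Ω i → Prop} (h : Rare S E) (h' : Rare S E') :
    Rare S (fun i ω => E i ω ∨ E' i ω) := by
  obtain ⟨η, hη, h⟩ := h
  obtain ⟨η', hη', h'⟩ := h'
  set m := min η η' with hm
  have hm0 : 0 < m := lt_min hη hη'
  refine ⟨m / 2, half_pos hm0, ?_⟩
  have h2 := (pow_tendsto S (half_pos hm0)).eventually (gt_mem_nhds (show (0:ℝ) < 1 / 2 by norm_num))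
  filter_upwards [h, h', h2] with i h3 h4 h5
  have hL : (0:ℝ) ≤ S.L i := Nat.cast_nonneg _
  have k1 : (2:ℝ) ^ (-(η * S.L i)) ≤ 2 ^ (-(m * S.L i)) := by
    refine Real.rpow_le_rpow_of_exponent_le (by norm_num) ?_
    have := mul_le_mul_of_nonneg_right (min_le_left η η') hL
    linarith
  have k2 : (2:ℝ) ^ (-(η' * S.L i)) ≤ 2 ^ (-(m * S.L i)) := by
    refine Real.rpow_le_rpow_of_exponent_le (by norm_num) ?_
    have := mul_le_mul_of_nonneg_right (min_le_right η η') hL
    linarith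
  have k3 : (2:ℝ) ^ (-(m * S.L i)) = 2 ^ (-(m / 2 * S.L i)) * 2 ^ (-(m / 2 * S.L i)) := by
    rw [← Real.rpow_add (by norm_num)]
    congr 1
    ring
  have k4 : (0:ℝ) < 2 ^ (-(m / 2 * S.L i)) := by positivity
  have k5 := prb_or (S := S) E E' i
  have k6 : (2:ℝ) ^ (-(m / 2 * S.L i)) * 2 ^ (-(m / 2 * S.L i)) ≤
      2 ^ (-(m / 2 * S.L i)) * (1 / 2) := mul_le_mul_of_nonneg_left h5.le k4.le
  linarith

theorem Rare.bUnion {ι : Type*} (s : Finset ι) {E : ι → ∀ i, S.Ω i → Prop}
    (h : ∀ j ∈ s, Rare S (E j)) : Rare S (fun i ω => ∃ j ∈ s, E j i ω) := by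
  classical
  induction s using Finset.induction_on with
  | empty => exact Rare.of_false (Eventually.of_forall fun i ω _ => by simp)
  | insert a s _ ih =>
    have h1 := h a (Finset.mem_insert_self _ _)
    have h2 := ih fun j hj => h j (Finset.mem_insert_of_mem hj)
    refine (h1.or h2).mono (Eventually.of_forall fun i ω _ => ?_)
    rintro ⟨j, hj, hE⟩
    rcases Finset.mem_insert.1 hj with rfl | hj
    · exact Or.inl hE
    · exact Or.inr ⟨j, hj, hE⟩

theorem not_rare {E : ∀ i, S.Ω i → Prop} (h : ¬ Rare S E) {η : ℝ} (hη : 0 < η) :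
    ∀ᶠ i in (uf : Filter ℕ), (2 : ℝ) ^ (-(η * S.L i)) < prb S E i := by
  by_contra hcon
  apply h
  refine ⟨η, hη, ?_⟩
  have h1 := Ultrafilter.eventually_not.2 hcon
  filter_upwards [h1] with i hi
  exact not_lt.1 hi

theorem not_rare_pos {E : ∀ i, S.Ω i → Prop} (h : ¬ Rare S E) :
    ∀ᶠ i in (uf : Filter ℕ), 0 < prb S E i := by
  filter_upwards [not_rare h one_pos] with i hi
  exact lt_trans (by positivity) hi

/-- the complement of a rare event is not rare -/
theorem Rare.not_compl {E : ∀ i, S.Ω i → Prop} (h : Rare S E) :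
    ¬ Rare S (fun i ω => ¬ E i ω) := by
  intro h'
  obtain ⟨η, hη, h1⟩ := h.or h'
  have h2 := (pow_tendsto S hη).eventually (gt_mem_nhds (show (0:ℝ) < 1 / 2 by norm_num))
  obtain ⟨i, h3, h4⟩ := (h1.and h2).exists
  have h5 : prb S (fun i ω => E i ω ∨ ¬ E i ω) i = 1 := by
    classical
    unfold prb
    rw [(S.P i).ex_congr (g := fun _ => (1:ℝ)) fun ω _ => by rw [if_pos (em _)]]
    exact (S.P i).ex_const 1
  rw [h5] at h3
  linarith

/-! ### conditioning -/

/-- the system conditioned on the event `E` (junk where the event has probability zero) -/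
noncomputable def cnd (S : Sys) (E : ∀ i, S.Ω i → Prop) : Sys where
  Ω := S.Ω
  fin := S.fin
  P := fun i => Stk.on (S.P i) (E i)
  L := S.L
  Ltop := S.Ltop

theorem cnd_supp (E : ∀ i, S.Ω i → Prop) (i : ℕ) (ω : S.Ω i) (h : 0 < ((cnd S E).P i).w ω) :
    0 < (S.P i).w ω := by
  classical
  by_cases h0 : 0 < prE (S.P i) (E i)
  · exact (on_pos h0 h).2
  · have h1 : Stk.on (S.P i) (E i) = S.P i := by
      unfold Stk.on Law.cond
      rw [dif_neg (by rw [prE_eq_aux]; exact h0)]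
    have h2 : 0 < (Stk.on (S.P i) (E i)).w ω := h
    rwa [h1] at h2

theorem cnd_mem_of {E : ∀ i, S.Ω i → Prop} {i : ℕ} (h0 : 0 < prb S E i) {ω : S.Ω i}
    (h : 0 < ((cnd S E).P i).w ω) : E i ω := by
  rw [prb_eq] at h0
  exact (on_pos h0 h).1

/-- a system conditioned on an event which is not rare is dense -/
noncomputable def dnsOn {E : ∀ i, S.Ω i → Prop} (h : ¬ Rare S E) : Dns (cnd S E) S where
  π := fun _ => id
  L_eq := rfl
  dom := by
    intro ε hε
    filter_upwards [not_rare h hε] with i hi ω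
    rw [prb_eq] at hi
    have h1 := Dom.on (P := S.P i) (E := E i) (p := (2 : ℝ) ^ (-(ε * S.L i))) (by positivity) hi.le ω
    refine h1.trans (le_of_eq ?_)
    rw [Real.rpow_neg (by norm_num), one_div, inv_inv]

theorem cnd_mem {E : ∀ i, S.Ω i → Prop} (h : ¬ Rare S E) :
    ∀ᶠ i in (uf : Filter ℕ), ∀ ω, 0 < ((cnd S E).P i).w ω → E i ω := by
  filter_upwards [not_rare_pos h] with i hi ω hω
  exact cnd_mem_of hi hω

/-- the system conditioned on the complement of a rare event is dense -/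
noncomputable def dnsOff {E : ∀ i, S.Ω i → Prop} (h : Rare S E) :
    Dns (cnd S fun i ω => ¬ E i ω) S := dnsOn h.not_compl

/-! ### dense systems -/

/-- every system is dense in itself -/
def Dns.refl' (S : Sys) : Dns S S where
  π := fun _ => id
  L_eq := rfl
  dom := by
    intro ε hε
    refine Eventually.of_forall fun i ω => ?_
    have h1 : (S.P i).pr (fun ω => id ω) ω = (S.P i).w ω := Stk.pr_id (S.P i) ω
    refine (le_of_eq h1).trans ?_
    have h2 : (1 : ℝ) ≤ 2 ^ (ε * S.L i) :=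
      Real.one_le_rpow (by norm_num) (mul_nonneg hε.le (Nat.cast_nonneg _))
    nlinarith [(S.P i).nn ω]

/-- an extension is dense -/
def Dns.ofExt (e : Ext S' S) : Dns S' S where
  π := e.π
  L_eq := e.L_eq
  dom := by
    intro ε hε
    refine Eventually.of_forall fun i ω => ?_
    rw [e.law]
    have h2 : (1 : ℝ) ≤ 2 ^ (ε * S.L i) :=
      Real.one_le_rpow (by norm_num) (mul_nonneg hε.le (Nat.cast_nonneg _))
    nlinarith [(S.P i).nn ω]

/-- composition of dense systems -/
def Dns.comp' (d' : Dns S'' S') (d : Dns S' S) : Dns S'' S where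
  π := fun i ω => d.π i (d'.π i ω)
  L_eq := d'.L_eq.trans d.L_eq
  dom := by
    intro ε hε
    filter_upwards [d'.dom (ε / 2) (half_pos hε), d.dom (ε / 2) (half_pos hε)] with i h1 h2 ω
    have h3 : Dom (S''.P i) (d'.π i) (S'.P i) ((2 : ℝ) ^ (ε / 2 * S'.L i)) := h1
    have h4 : Dom (S'.P i) (d.π i) (S.P i) ((2 : ℝ) ^ (ε / 2 * S.L i)) := h2
    have h5 := h3.comp h4 ω
    have h6 : S'.L i = S.L i := congrFun d.L_eq i
    refine le_trans h5 (le_of_eq ?_)
    rw [h6, ← Real.rpow_add (by norm_num)]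
    congr 2
    ring

theorem Dns.comp'_pull (d' : Dns S'' S') (d : Dns S' S) (X : S.RV α) :
    (d'.comp' d).pull X = d'.pull (d.pull X) := rfl

theorem Dns.comp'_pullB (d' : Dns S'' S') (d : Dns S' S) (B : S.BX) :
    (d'.comp' d).pullB B = d'.pullB (d.pullB B) := rfl

/-- the support of a dense system -/
theorem Dns.supp (d : Dns S' S) : ∀ᶠ i in (uf : Filter ℕ), ∀ ω, 0 < (S'.P i).w ω →
    0 < (S.P i).w (d.π i ω) := by
  filter_upwards [d.dom 1 one_pos] with i h1 ω hω
  have h2 : Dom (S'.P i) (d.π i) (S.P i) ((2 : ℝ) ^ (1 * (S.L i : ℝ))) := h1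
  exact h2.pos hω

theorem prb_pull_le {K : ℝ} {i : ℕ} {π : S'.Ω i → S.Ω i}
    (h : ∀ ω, (S'.P i).pr π ω ≤ K * (S.P i).w ω) (E : S.Ω i → Prop) :
    prE (S'.P i) (fun ω => E (π ω)) ≤ K * prE (S.P i) E := by
  classical
  have h1 : prE (S'.P i) (fun ω => E (π ω)) = ∑ ω with E ω, (S'.P i).pr π ω := by
    unfold prE Law.pr
    rw [← Finset.sum_fiberwise_of_maps_to (g := π) (t := univ.filter E)
      (s := univ.filter fun ω => E (π ω)) (fun ω hω => by simpa using hω)]
    refine Finset.sum_congr rfl fun ω hω => ?_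
    have hE : E ω := by simpa using hω
    rw [Finset.filter_filter]
    refine Finset.sum_congr ?_ fun _ _ => rfl
    ext ω'
    simp only [Finset.mem_filter, Finset.mem_univ, true_and]
    constructor
    · rintro ⟨-, rfl⟩
      rfl
    · intro e
      exact ⟨by rw [e]; exact hE, e⟩
  rw [h1]
  unfold prE
  rw [Finset.mul_sum]
  exact Finset.sum_le_sum fun ω _ => h ω

/-- a rare event is rare in every dense system -/
theorem Rare.pull {E : ∀ i, S.Ω i → Prop} (h : Rare S E) (d : Dns S' S) :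
    Rare S' (fun i ω => E i (d.π i ω)) := by
  obtain ⟨η, hη, h⟩ := h
  refine ⟨η / 2, half_pos hη, ?_⟩
  filter_upwards [h, d.dom (η / 2) (half_pos hη)] with i h1 h2
  rw [prb_eq] at h1 ⊢
  refine (prb_pull_le h2 (E i)).trans ?_
  have h6 : S'.L i = S.L i := congrFun d.L_eq i
  rw [h6]
  calc (2 : ℝ) ^ (η / 2 * S.L i) * prE (S.P i) (E i) ≤
      (2 : ℝ) ^ (η / 2 * S.L i) * 2 ^ (-(η * S.L i)) := mul_le_mul_of_nonneg_left h1 (by positivity)
    _ = _ := by
        rw [← Real.rpow_add (by norm_num)]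
        congr 1
        ring

/-! ### conditional probabilities -/

open Classical in
/-- average of conditional probabilities over a fibre -/
theorem pr_mul_prE_cond {Ω : Type} [Fintype Ω] (P : Law Ω) (Z : Ω → α) (z : α) (E : Ω → Prop) :
    P.pr Z z * prE (P.cond Z z) E = ∑ ω with E ω ∧ Z ω = z, P.w ω := by
  by_cases hz : 0 < P.pr Z z
  · unfold prE
    simp only [P.cond_w Z z hz]
    rw [← Finset.sum_filter, Finset.filter_filter, Finset.mul_sum]
    refine Finset.sum_congr rfl fun ω _ => ?_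
    field_simp
  · have h0 : P.pr Z z = 0 := le_antisymm (not_lt.1 hz) (P.pr_nonneg Z z)
    rw [h0, zero_mul]
    symm
    refine Finset.sum_eq_zero fun ω hω => ?_
    have h1 : Z ω = z := (Finset.mem_filter.1 hω).2.2
    have h2 := P.w_le_pr Z ω
    rw [h1, h0] at h2
    exact le_antisymm h2 (P.nn ω)

theorem sum_pr_prE {Ω : Type} [Fintype Ω] (P : Law Ω) (Z : Ω → α) (E : Ω → Prop) :
    ∑ z ∈ img Z, P.pr Z z * prE (P.cond Z z) E = prE P E := by
  classical
  simp only [pr_mul_prE_cond]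
  unfold prE
  rw [← Finset.sum_fiberwise_of_maps_to (g := Z) (t := img Z) (s := univ.filter E) (by simp)]
  refine Finset.sum_congr rfl fun z _ => ?_
  rw [Finset.filter_filter]

theorem ex_prE_cond {Ω : Type} [Fintype Ω] (P : Law Ω) (Z : Ω → α) (f : α → ℝ) :
    P.ex (fun ω => f (Z ω)) = ∑ z ∈ img Z, P.pr Z z * f z := by
  classical
  unfold Law.ex Law.pr
  rw [← Finset.sum_fiberwise_of_maps_to (g := Z) (t := img Z) (s := univ) (by simp)]
  refine Finset.sum_congr rfl fun z _ => ?_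
  rw [Finset.sum_mul]
  refine Finset.sum_congr rfl fun ω hω => ?_
  have : Z ω = z := (Finset.mem_filter.1 hω).2
  show P.w ω * f (Z ω) = P.w ω * f z
  rw [this]

/-- **Markov** : the conditional probability of a rare event is small off a rare event -/
theorem Rare.markov {E : ∀ i, S.Ω i → Prop} (h : Rare S E) (Z : S.RV α) :
    ∃ η : ℝ, 0 < η ∧ Rare S (fun i ω =>
      (2 : ℝ) ^ (-(η * S.L i)) < prE ((S.P i).cond (Z i) (Z i ω)) (E i)) := by
  obtain ⟨η, hη, h⟩ := h
  refine ⟨η / 2, half_pos hη, η / 2, half_pos hη, ?_⟩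
  filter_upwards [h] with i h1
  set t : ℝ := (2 : ℝ) ^ (-(η / 2 * S.L i)) with ht
  have ht0 : 0 < t := by positivity
  have h2 : t * prb S (fun i ω => (2 : ℝ) ^ (-(η / 2 * S.L i)) <
      prE ((S.P i).cond (Z i) (Z i ω)) (E i)) i ≤ prb S E i := by
    rw [prb_eq (S := S) E, ← sum_pr_prE (S.P i) (Z i) (E i),
      ← ex_prE_cond (S.P i) (Z i) (fun z => prE ((S.P i).cond (Z i) z) (E i))]
    unfold prb
    rw [← (S.P i).ex_const_mul]
    refine (S.P i).ex_mono fun ω _ => ?_
    by_cases hh : (2 : ℝ) ^ (-(η / 2 * S.L i)) < prE ((S.P i).cond (Z i) (Z i ω)) (E i)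
    · rw [if_pos hh, mul_one]
      exact hh.le
    · rw [if_neg hh, mul_zero]
      exact prE_nonneg _ _
  have h3 : (2 : ℝ) ^ (-(η * S.L i)) = t * t := by
    rw [ht, ← Real.rpow_add (by norm_num)]
    congr 1
    ring
  rw [h3] at h1
  have h4 := h2.trans h1
  exact le_of_mul_le_mul_left h4 ht0

/-- a fibre contains a point at most as bad as the average -/
theorem exists_le_avg {Ω : Type} [Fintype Ω] (P : Law Ω) (f : Ω → ℝ) :
    ∃ ω, 0 < P.w ω ∧ f ω ≤ P.ex f := by
  by_contra hcon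
  push Not at hcon
  have h1 : ∃ ω, 0 < P.w ω := by
    by_contra h2
    push Not at h2
    have h3 : ∑ ω, P.w ω ≤ 0 := Finset.sum_nonpos fun ω _ => h2 ω
    rw [P.sum_one] at h3
    linarith
  obtain ⟨ω₀, h₀⟩ := h1
  have h4 : P.ex (fun _ => P.ex f) < P.ex f := by
    unfold Law.ex
    refine Finset.sum_lt_sum (fun ω _ => ?_) ⟨ω₀, Finset.mem_univ _, ?_⟩
    · rcases (P.nn ω).eq_or_lt with h0 | h0
      · rw [← h0, zero_mul, zero_mul]
      · exact mul_le_mul_of_nonneg_left (hcon ω h0).le h0.le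
    · exact mul_lt_mul_of_pos_left (hcon ω₀ h₀) h₀
  rw [P.ex_const] at h4
  exact lt_irrefl _ h4

/-- **selection** : two conditionally independent copies given `Z`. If the bad event of the pair has small probability,
there is a choice function `ψ` with values in the fibres such that `E ω (ψ (Z ω))` has small probability. -/
theorem select_fin {Ω : Type} [Fintype Ω] (P : Law Ω) (Z : Ω → α) (E : Ω → Ω → Prop) :
    ∃ ψ : α → Ω, (∀ z, 0 < P.pr Z z → Z (ψ z) = z ∧ 0 < P.w (ψ z)) ∧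
      prE P (fun ω => E ω (ψ (Z ω))) ≤
        P.ex fun ω' => prE (P.cond Z (Z ω')) (fun ω => E ω ω') := by
  classical
  have h1 : ∀ z, ∃ ω', 0 < (P.cond Z z).w ω' ∧ prE (P.cond Z z) (fun ω => E ω ω') ≤
      (P.cond Z z).ex fun ω' => prE (P.cond Z z) (fun ω => E ω ω') := fun z =>
    exists_le_avg (P.cond Z z) _
  choose ψ hψ using h1
  refine ⟨ψ, ?_, ?_⟩
  · intro z hz
    have h2 := (hψ z).1
    rw [P.cond_w Z z hz] at h2
    by_cases h3 : Z (ψ z) = z
    · rw [if_pos h3] at h2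
      refine ⟨h3, ?_⟩
      by_contra h4
      have h5 : P.w (ψ z) = 0 := le_antisymm (not_lt.1 h4) (P.nn _)
      rw [h5, zero_div] at h2
      exact lt_irrefl _ h2
    · rw [if_neg h3] at h2
      exact absurd h2 (lt_irrefl _)
  · have e1 : prE P (fun ω => E ω (ψ (Z ω))) =
        ∑ z ∈ img Z, P.pr Z z * prE (P.cond Z z) (fun ω => E ω (ψ z)) := by
      rw [← sum_pr_prE P Z]
      refine Finset.sum_congr rfl fun z _ => ?_
      rw [pr_mul_prE_cond, pr_mul_prE_cond]
      refine Finset.sum_congr ?_ fun _ _ => rfl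
      ext ω
      simp only [Finset.mem_filter, Finset.mem_univ, true_and]
      constructor
      · rintro ⟨a, b⟩
        exact ⟨by rw [b] at a; exact a, b⟩
      · rintro ⟨a, b⟩
        exact ⟨by rw [b]; exact a, b⟩
    have e2 : P.ex (fun ω' => prE (P.cond Z (Z ω')) (fun ω => E ω ω')) =
        ∑ z ∈ img Z, P.pr Z z * (P.cond Z z).ex fun ω' => prE (P.cond Z z) (fun ω => E ω ω') := by
      unfold Law.ex
      rw [← Finset.sum_fiberwise_of_maps_to (g := Z) (t := img Z) (s := univ) (by simp)]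
      refine Finset.sum_congr rfl fun z _ => ?_
      by_cases hz : 0 < P.pr Z z
      · simp only [P.cond_w Z z hz]
        rw [Finset.mul_sum, Finset.sum_filter]
        refine Finset.sum_congr rfl fun ω' _ => ?_
        by_cases h3 : Z ω' = z
        · rw [if_pos h3, if_pos h3, h3]
          field_simp
        · rw [if_neg h3, if_neg h3, zero_mul, mul_zero]
      · have h0 : P.pr Z z = 0 := le_antisymm (not_lt.1 hz) (P.pr_nonneg Z z)
        rw [h0, zero_mul]
        refine Finset.sum_eq_zero fun ω hω => ?_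
        have h4 : Z ω = z := (Finset.mem_filter.1 hω).2
        have h5 := P.w_le_pr Z ω
        rw [h4, h0] at h5
        rw [le_antisymm h5 (P.nn ω), zero_mul]
    rw [e1, e2]
    exact Finset.sum_le_sum fun z _ => mul_le_mul_of_nonneg_left (hψ z).2 (P.pr_nonneg Z z)

/-- **selection** for systems -/
theorem select (Z : S.RV α) (E : ∀ i, S.Ω i → S.Ω i → Prop)
    (h : ∃ η : ℝ, 0 < η ∧ ∀ᶠ i in (uf : Filter ℕ),
      ((S.P i).ex fun ω' => prE ((S.P i).cond (Z i) (Z i ω')) (fun ω => E i ω ω')) ≤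
        (2 : ℝ) ^ (-(η * S.L i))) :
    ∃ ψ : ∀ i, α → S.Ω i,
      (∀ i ω, 0 < (S.P i).w ω → Z i (ψ i (Z i ω)) = Z i ω ∧ 0 < (S.P i).w (ψ i (Z i ω))) ∧
      Rare S (fun i ω => E i ω (ψ i (Z i ω))) := by
  choose ψ hψ using fun i => select_fin (S.P i) (Z i) (E i)
  obtain ⟨η, hη, h⟩ := h
  refine ⟨ψ, fun i ω hω => (hψ i).1 _ ((S.P i).pr_pos (Z i) hω), η, hη, ?_⟩
  filter_upwards [h] with i hi
  rw [prb_eq]
  exact (hψ i).2.trans hi

end Vale.Agent.P122.E
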